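import Vale.Agent.P284.H661.K.MuEq
import Vale.Agent.P284.H501.K.Den
import Vale.Agent.P284.H213.Grp.AsmR

/-!
# P284 (helper661), K9: `VolStmt`
-/

open scoped Manifold ContDiff Topology Pointwise ComplexConjugate ComplexOrder Matrix ENNReal
open Filter Set Metric MeasureTheory

noncomputable section

namespace Vale.Agent.P284.H661.K

open Vale.Agent.P272.K Vale.Agent.P284.H248 Vale.Agent.P284.H894 Vale.Agent.P284.H894.G
  Vale.Agent.P284.H894.V Vale.Agent.P284.H894.W Vale.Agent.P284.H639.V Vale.Agent.P284.H66.S7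
  Vale.Agent.P284.H650 Vale.Agent.P284.H551 Vale.Agent.P284.H501.K Vale.Agent.P284.H10
  Vale.Agent.P284.H383.K9 Vale.Agent.P284.H608.K Vale.Agent.P284.H494 Vale.Agent.P284.H224

/-- **(VOL)** all components of all regular fibres have the same volume -/
theorem volStmt : VolStmt := by
  intro n q X _ _ _ _ _ _ w hw E Γ _ _ _ _ _ _ p hG F c hA hinj hq hex μ hμ
  obtain ⟨B, hF⟩ := hA.hol
  obtain ⟨C, D, K, ⟨P⟩, hKw⟩ := exists_eCoc hw hG
  obtain ⟨y₀, hy₀⟩ := hex
  have hqn : q ≤ n := H213.Grp.le_of_reg hF hy₀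
  have hc := hA.equiv
  have hD := td hq hG hA ⟨y₀, hy₀⟩
  have hcm : ∀ g h : Γ, c (g * h) = c g + c h := by
    intro g h
    have h1 := hc (g * h) y₀
    rw [mul_smul, hc, hc] at h1
    have h2 : F y₀ + (c g + c h) = F y₀ + c (g * h) := by rw [← h1]; abel
    exact (add_left_cancel h2).symm
  have hci : Function.Injective c := by
    intro g h hgh
    have h1 : c (g * h⁻¹ * h) = c (g * h⁻¹) + c h := hcm _ _
    rw [inv_mul_cancel_right, hgh] at h1
    have h2 : c (g * h⁻¹) = 0 := by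
      have h3 : 0 + c h = c (g * h⁻¹) + c h := by rw [zero_add]; exact h1
      exact (add_right_cancel h3).symm
    exact mul_inv_eq_one.1 (hinj _ h2)
  have hfin : ∀ R : ℝ, {g : Γ | ‖c g‖ ≤ R}.Finite := by
    intro R
    refine Set.Finite.of_finite_image ((hA.disc R).subset ?_) hci.injOn
    rintro _ ⟨g, hg, rfl⟩
    exact ⟨⟨g, rfl⟩, hg⟩
  obtain ⟨v₀, hv₀, hvol⟩ := vol_const (P := P) (K := K) (D := D) hG hD hqn hF hc hfin
    (fun y hy => hy y rfl)
  set κ : ℝ≥0∞ := ENNReal.ofReal (mq q) * ((n - q).factorial : ℝ≥0∞) with hκ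
  have hκ0 : κ ≠ 0 := by
    refine mul_ne_zero (ENNReal.ofReal_pos.2 (mq_pos q)).ne' ?_
    exact_mod_cast (Nat.factorial_pos _).ne'
  have hκt : κ ≠ ⊤ := ENNReal.mul_ne_top ENNReal.ofReal_ne_top (ENNReal.natCast_ne_top _)
  refine ⟨ENNReal.ofReal v₀ / κ, ?_, ?_⟩
  · exact (ENNReal.div_pos (ENNReal.ofReal_pos.2 hv₀).ne' hκt).ne'
  · intro t r hr hsub σ hσ hσF g hg
    have hsec : IsSec F (RV n p F) σ t r := ⟨hsub, hσ, hσF⟩
    have h1 := vol_le (P := P) (K := K) (D := D) hG hD hF hc hfin hsec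
      (fun a ρ h2 h3 => hvol σ t r hsec a ρ h2 h3) hg
    have hTm : MeasurableSet (tube F σ t r) := (tube_tub hD hsec).opn.measurableSet
    have hFm : Measurable F := hD.cont.measurable
    have h2 : ∫⁻ y in tube F σ t r, g (F y) ∂(H501.K.mu P K D F) = ((n - q).factorial : ℝ≥0∞) *
        ∫⁻ y in tube F σ t r, g (F y) * ENNReal.ofReal (dV hG.cov w F y) ∂μ := by
      have hm : Measurable fun y => g (F y) := hg.comp hFm
      rw [← lintegral_indicator hTm, mu_eq hqn hG P hKw hw hF hc hμ (hm.indicator hTm),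
        ← lintegral_indicator hTm]
      congr 1
      refine lintegral_congr fun y => ?_
      by_cases hy : y ∈ tube F σ t r
      · rw [indicator_of_mem hy, indicator_of_mem hy]
      · rw [indicator_of_notMem hy, indicator_of_notMem hy, zero_mul]
    rw [h2, ← mul_assoc, ← hκ] at h1
    show ENNReal.ofReal v₀ / κ * ∫⁻ s in ball t r, g s ≤
      ∫⁻ y in tube F σ t r, g (F y) * ENNReal.ofReal (dV hG.cov w F y) ∂μ
    rw [ENNReal.div_eq_inv_mul, mul_assoc]
    refine (ENNReal.inv_mul_le_iff hκ0 hκt).2 h1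

end Vale.Agent.P284.H661.K
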