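import Vale.Agent.P284.H661.K.Sheet

/-!
# P284 (helper661), K9: integration over the covering by the sheets; the measure `|dF_1 ∧ … ∧ dF_q|² dV`
-/

open scoped Manifold ContDiff Topology Pointwise ComplexConjugate ComplexOrder Matrix ENNReal
open Filter Set Metric MeasureTheory

noncomputable section

namespace Vale.Agent.P284.H661.K

open Vale.Agent.P272.K Vale.Agent.P284.H248 Vale.Agent.P284.H894 Vale.Agent.P284.H894.G
  Vale.Agent.P284.H894.V Vale.Agent.P284.H894.W Vale.Agent.P284.H639.V Vale.Agent.P284.H66.S7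
  Vale.Agent.P284.H650 Vale.Agent.P284.H551 Vale.Agent.P284.H501.K Vale.Agent.P284.H10
  Vale.Agent.P284.H383.K9 Vale.Agent.P284.H608.K

section
variable {n q : ℕ} {Γ X E : Type} [Group Γ] [TopologicalSpace X] [ChartedSpace (Cm n) X]
  [TopologicalSpace E] [MulAction Γ E] {p : E → X} {C : Coc n Γ}
  {w : Chart n X → Cm n → Matrix (Fin n) (Fin n) ℂ} {B : ℝ} {F : E → Cm q}
  (P : PU C) (K : KM C) (D : ECoc p C)

/-- the part of the sheet over `V a` -/
def SV (i : Γ × C.I) : Set E := (fun z => i.1 • D.σ i.2 z) '' C.V i.2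

open Classical in
/-- the function of the partition of unity on the sheet -/
def rho (i : Γ × C.I) (y : E) : ℝ≥0∞ :=
  if y ∈ SV D i then ENNReal.ofReal (P.χ i.2 i.2 (D.e i.2 (p y))) else 0

variable {P K D}

theorem SV_open (hG : IsGalois Γ p) (i : Γ × C.I) : IsOpen (SV D i) := by
  rw [isOpen_iff_mem_nhds]
  rintro _ ⟨z, hz, rfl⟩
  have hzΩ := V_sub_Ω C i.2 hz
  have h1 := D.ev hG i.1 hzΩ
  have h2 : ∀ᶠ y in 𝓝 (i.1 • D.σ i.2 z), D.e i.2 (p y) ∈ C.V i.2 := by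
    have hc : ContinuousAt (fun y => D.e i.2 (p y)) (i.1 • D.σ i.2 z) := by
      have h3 : ContinuousAt (D.e i.2) (p (i.1 • D.σ i.2 z)) := by
        rw [D.proj' hG i.1 hzΩ]
        exact (D.e i.2).continuousAt (D.source hzΩ)
      exact h3.comp hG.cov.continuous.continuousAt
    refine hc.eventually ?_
    show ∀ᶠ y in 𝓝 (D.e i.2 (p (i.1 • D.σ i.2 z))), y ∈ C.V i.2
    rw [D.e_proj hG i.1 hzΩ]
    exact isOpen_ball.mem_nhds hz
  filter_upwards [h1, h2] with y hy hy2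
  exact ⟨_, hy2, hy.2.2⟩

theorem rho_sheet (hG : IsGalois Γ p) (i : Γ × C.I) {z : Cm n} (hz : z ∈ C.V i.2) :
    rho P D i (i.1 • D.σ i.2 z) = ENNReal.ofReal (P.χ i.2 i.2 z) := by
  rw [rho, if_pos ⟨z, hz, rfl⟩, D.e_proj hG i.1 (V_sub_Ω C i.2 hz)]

/-- the functions form a partition of unity -/
theorem tsum_rho (hG : IsGalois Γ p) (y : E) : ∑' i : Γ × C.I, rho P D i y = 1 := by
  classical
  obtain ⟨γ₀, a₀, h1, h2, h3⟩ := D.exists_sheet hG y
  set z₀ := D.e a₀ (p y) with hz₀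
  have hzΩ : z₀ ∈ C.Ω a₀ := ball_subset_ball (by linarith [C.r_pos a₀]) h2
  -- the sheets which contain the point
  have key : ∀ (γ : Γ) (b : C.I), y ∈ SV D (γ, b) → z₀ ∈ C.O a₀ b ∧ C.T a₀ b z₀ ∈ C.V b ∧
      γ = γ₀ * C.κ a₀ b z₀ ∧ D.e b (p y) = C.T a₀ b z₀ := by
    rintro γ b ⟨z, hz, hy⟩
    have hy' : γ • D.σ b z = y := hy
    have h4 := D.eq_imp hG hzΩ (V_sub_Ω C b hz) (h3.trans hy'.symm)
    refine ⟨h4.1, ?_, h4.2.2, ?_⟩
    · rw [h4.2.1]; exact hz
    · rw [h4.2.1, ← hy', D.e_proj hG γ (V_sub_Ω C b hz)]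
  have hb : ∀ b, ∑' γ : Γ, rho P D (γ, b) y = ENNReal.ofReal (P.χ b a₀ z₀) := by
    intro b
    rw [tsum_eq_single (γ₀ * C.κ a₀ b z₀)]
    · by_cases hy : y ∈ SV D (γ₀ * C.κ a₀ b z₀, b)
      · obtain ⟨k1, -, -, k4⟩ := key _ _ hy
        rw [rho, if_pos hy]
        show ENNReal.ofReal (P.χ b b (D.e b (p y))) = _
        rw [k4, ← P.compat b a₀ b z₀ k1]
      · rw [rho, if_neg hy]
        have h5 : P.χ b a₀ z₀ = 0 := by
          by_contra hne
          obtain ⟨h6, h7⟩ := P.supp b a₀ z₀ hzΩ hne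
          refine hy ⟨C.T a₀ b z₀, P.K_sub b h7, ?_⟩
          show (γ₀ * C.κ a₀ b z₀) • D.σ b (C.T a₀ b z₀) = y
          rw [D.smul_T h6, h3]
        rw [h5, ENNReal.ofReal_zero]
    · intro γ hγ
      rw [rho, if_neg]
      exact fun hy => hγ (key _ _ hy).2.2.1
  have h9 : ∑' i : Γ × C.I, rho P D i y = ∑' (b : C.I) (γ : Γ), rho P D (γ, b) y := by
    rw [ENNReal.tsum_comm]
    exact ENNReal.tsum_prod'
  rw [h9]
  simp only [hb]
  rw [tsum_fintype, ← ENNReal.ofReal_sum_of_nonneg fun b _ => P.nonneg b a₀ z₀,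
    P.sum_one a₀ z₀ hzΩ, ENNReal.ofReal_one]

variable [MeasurableSpace E] [BorelSpace E]

theorem rho_meas (hG : IsGalois Γ p) (i : Γ × C.I) : Measurable (rho P D i) := by
  classical
  have h1 : rho P D i = (SV D i).piecewise
      (fun y => ENNReal.ofReal (P.χ i.2 i.2 (D.e i.2 (p y)))) (fun _ => 0) := by
    funext y
    rw [rho, Set.piecewise]
  rw [h1]
  refine ContinuousOn.measurable_piecewise ?_ continuousOn_const (SV_open hG i).measurableSet
  rintro _ ⟨z, hz, rfl⟩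
  have hzΩ := V_sub_Ω C i.2 hz
  refine ContinuousAt.continuousWithinAt ?_
  refine ENNReal.continuous_ofReal.continuousAt.comp ?_
  have hc : ContinuousAt (fun y => D.e i.2 (p y)) (i.1 • D.σ i.2 z) := by
    have h3 : ContinuousAt (D.e i.2) (p (i.1 • D.σ i.2 z)) := by
      rw [D.proj' hG i.1 hzΩ]
      exact (D.e i.2).continuousAt (D.source hzΩ)
    exact h3.comp hG.cov.continuous.continuousAt
  refine ContinuousAt.comp (f := fun y => D.e i.2 (p y)) (g := P.χ i.2 i.2) ?_ hc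
  show ContinuousAt (P.χ i.2 i.2) (D.e i.2 (p (i.1 • D.σ i.2 z)))
  rw [D.e_proj hG i.1 hzΩ]
  exact (P.smooth i.2 i.2 z hzΩ).continuousAt

/-- the integral over one sheet -/
theorem lint_sheet (hG : IsGalois Γ p) (hKw : ∀ a, K.w a = w (D.e a)) {μ : Measure E}
    (hμ : VolE p w μ) (i : Γ × C.I) {g : E → ℝ≥0∞} (hg : Measurable g) :
    ∫⁻ y, rho P D i y * g y ∂μ = ∫⁻ z in C.V i.2, ENNReal.ofReal (P.χ i.2 i.2 z) *
      g (i.1 • D.σ i.2 z) * ENNReal.ofReal ((K.w i.2 z).det.re) := by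
  classical
  have h1 := hμ (D.e i.2) (sheet hG D i.1 i.2) (isCh_sheet hG D i.1 i.2)
    (fun y => rho P D i y * g y) ((rho_meas hG i).mul hg) (fun x hx => ?_)
  · rw [h1]
    have h2 : ∀ z ∈ C.Ω i.2, rho P D i (i.1 • D.σ i.2 z) * g (i.1 • D.σ i.2 z) *
        ENNReal.ofReal ((w (D.e i.2) z).det.re) = (C.V i.2).indicator (fun z =>
          ENNReal.ofReal (P.χ i.2 i.2 z) * g (i.1 • D.σ i.2 z) *
            ENNReal.ofReal ((K.w i.2 z).det.re)) z := by
      intro z hz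
      by_cases hzV : z ∈ C.V i.2
      · rw [indicator_of_mem hzV, rho_sheet hG i hzV, hKw]
      · rw [indicator_of_notMem hzV, rho, if_neg, zero_mul, zero_mul]
        rintro ⟨z', hz', h⟩
        have h3 : i.1 • D.σ i.2 z' = i.1 • D.σ i.2 z := h
        have h4 := congrArg (fun y => D.e i.2 (p y)) h3
        simp only [D.e_proj hG i.1 (V_sub_Ω C i.2 hz'), D.e_proj hG i.1 hz] at h4
        rw [h4] at hz'
        exact hzV hz'
    have h5 : ∫⁻ z in (sheet hG D i.1 i.2).target, rho P D i ((sheet hG D i.1 i.2).symm z) *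
        g ((sheet hG D i.1 i.2).symm z) * ENNReal.ofReal ((w (D.e i.2) z).det.re) =
        ∫⁻ z in C.Ω i.2, (C.V i.2).indicator (fun z =>
          ENNReal.ofReal (P.χ i.2 i.2 z) * g (i.1 • D.σ i.2 z) *
            ENNReal.ofReal ((K.w i.2 z).det.re)) z :=
      setLIntegral_congr_fun isOpen_ball.measurableSet h2
    have hV : MeasurableSet (C.V i.2) := measurableSet_ball
    rw [h5, setLIntegral_indicator hV, inter_eq_self_of_subset_left (V_sub_Ω C i.2)]
  · have h3 : x ∉ SV D i := by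
      rintro ⟨z, hz, h⟩
      exact hx ⟨z, V_sub_Ω C i.2 hz, h⟩
    show rho P D i x * g x = 0
    rw [rho, if_neg h3, zero_mul]

/-- **the integral over the covering** -/
theorem lint_cover (hG : IsGalois Γ p) (P : PU C) (hKw : ∀ a, K.w a = w (D.e a)) {μ : Measure E}
    (hμ : VolE p w μ) {g : E → ℝ≥0∞} (hg : Measurable g) :
    ∫⁻ y, g y ∂μ = ∑' i : Γ × C.I, ∫⁻ z in C.V i.2, ENNReal.ofReal (P.χ i.2 i.2 z) *
      g (i.1 • D.σ i.2 z) * ENNReal.ofReal ((K.w i.2 z).det.re) := by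
  have hfg : Group.FG Γ := H639.V.fg_of_coc C
  have hcΓ : Countable Γ := P260.F.countable_of_fg Γ hfg
  have hfin : Finite C.I := by
    have := C.fin
    infer_instance
  have h1 : ∀ y, g y = ∑' i : Γ × C.I, rho P D i y * g y := fun y => by
    rw [ENNReal.tsum_mul_right, tsum_rho hG, one_mul]
  conv_lhs => enter [2, y]; rw [h1 y]
  rw [lintegral_tsum (f := fun i y => rho P D i y * g y)
    fun i => ((rho_meas hG i).mul hg).aemeasurable]
  exact tsum_congr fun i => lint_sheet hG hKw hμ i hg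

variable [IsManifold 𝓘(ℂ, Cm n) ω X]

/-- **the measure `|dF_1 ∧ … ∧ dF_q|² dV`** -/
theorem mu_eq (hq : q ≤ n) (hG : IsGalois Γ p) (P : PU C) (hKw : ∀ a, K.w a = w (D.e a))
    (hw : IsKahler w) (hF : HolB p w F B) {c : Γ → Cm q}
    (hc : ∀ (g : Γ) y, F (g • y) = F y + c g) {μ : Measure E} (hμ : VolE p w μ)
    {f : E → ℝ≥0∞} (hf : Measurable f) :
    ∫⁻ y, f y ∂(H501.K.mu P K D F) =
      ((n - q).factorial : ℝ≥0∞) * ∫⁻ y, f y * ENNReal.ofReal (dV hG.cov w F y) ∂μ := by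
  have hm : Measurable fun y => f y * ENNReal.ofReal (dV hG.cov w F y) :=
    hf.mul (ENNReal.measurable_ofReal.comp (dV_cont hq hG D K hKw hw hF).measurable)
  rw [lint_mu hG hF hf, lint_cover hG P hKw hμ hm, ← ENNReal.tsum_mul_left]
  refine tsum_congr fun i => ?_
  rw [← lintegral_const_mul']
  · refine setLIntegral_congr_fun measurableSet_ball fun z hz => ?_
    have hzΩ := V_sub_Ω C i.2 hz
    show ENNReal.ofReal (dE P K D F i.2 z) * f (i.1 • D.σ i.2 z) =
      ((n - q).factorial : ℝ≥0∞) * (ENNReal.ofReal (P.χ i.2 i.2 z) *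
        (f (i.1 • D.σ i.2 z) * ENNReal.ofReal (dV hG.cov w F (i.1 • D.σ i.2 z))) *
          ENNReal.ofReal ((K.w i.2 z).det.re))
    have h1 : H501.K.dJ (K.w i.2 z) (JF (Fc D F 1 i.2) z) = ((n - q).factorial : ℝ) *
        (K.w i.2 z).det.re * dV hG.cov w F (i.1 • D.σ i.2 z) := by
      rw [← dJ_dV hq hG D K hKw hw hF i.1 hzΩ, JF_Fc hc i.1]
    have hv : 0 ≤ (K.w i.2 z).det.re := (vol_pos K hzΩ).le
    rw [dE, h1, ENNReal.ofReal_mul (P.nonneg _ _ _), ENNReal.ofReal_mul (mul_nonneg (by positivity) hv),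
      ENNReal.ofReal_mul (by positivity), ENNReal.ofReal_natCast]
    ring
  · exact ENNReal.natCast_ne_top _

end

end Vale.Agent.P284.H661.K
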