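import Vale.Agent.P284.H501.K.Mu2
import Vale.Agent.P284.H383.K9.C
import Vale.Agent.P284.H619.K.AlgD

/-!
# P284 (helper661), K9: the sheets of the pieces as charts of the covering; the density `dV`
-/

open scoped Manifold ContDiff Topology Pointwise ComplexConjugate ComplexOrder Matrix ENNReal
open Filter Set Metric MeasureTheory

noncomputable section

namespace Vale.Agent.P284.H661.K

open Vale.Agent.P272.K Vale.Agent.P284.H248 Vale.Agent.P284.H894 Vale.Agent.P284.H894.G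
  Vale.Agent.P284.H894.V Vale.Agent.P284.H894.W Vale.Agent.P284.H639.V Vale.Agent.P284.H66.S7
  Vale.Agent.P284.H650 Vale.Agent.P284.H551 Vale.Agent.P284.H501.K Vale.Agent.P284.H10
  Vale.Agent.P284.H383.K9 Vale.Agent.P284.H608.K

/-- the Gram determinant of the rows of `J` -/
def GJ {n q : ℕ} (w : Matrix (Fin n) (Fin n) ℂ) (J : Matrix (Fin q) (Fin n) ℂ) : ℝ :=
  (J.map (starRingEnd ℂ) * w⁻¹ * J.transpose).det.re

theorem JF_eq {n q : ℕ} {f : Cm n → Cm q} {z : Cm n} (hf : DifferentiableAt ℂ f z) (l : Fin q)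
    (c : Fin n) : JF f z l c = H619.K.tL (fderiv ℂ f z) l c := by
  have h := JF_apply hf l (Pi.single c 1)
  rw [Finset.sum_eq_single c] at h
  · rw [Pi.single_eq_same, mul_one] at h
    exact h
  · intro b _ hb
    rw [Pi.single_eq_of_ne hb, mul_zero]
  · simp

theorem hn_VV {n q : ℕ} (w : Matrix (Fin n) (Fin n) ℂ) {f : Cm n → Cm q} {z : Cm n}
    (hf : DifferentiableAt ℂ f z) : (hn w (VV f z) (VV f z)).re = GJ w (JF f z) := by
  have h1 : H619.K.IsDet (fderiv ℂ f z) (VV f z) := fun ξ => VV_mnr f z ξ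
  rw [H619.K.hn_det w h1, GJ]
  congr 1
  rw [← Matrix.det_transpose, H619.K.gm_eq]
  congr 1
  have h2 : (Matrix.of fun l c => conj (H619.K.tL (fderiv ℂ f z) l c)) =
      (JF f z).map (starRingEnd ℂ) := by
    ext l c
    rw [Matrix.of_apply, Matrix.map_apply, JF_eq hf]
  rw [h2]
  congr 1
  ext c l
  rw [Matrix.conjTranspose_apply, Matrix.map_apply, Matrix.transpose_apply]
  exact Complex.conj_conj _

section
variable {n q : ℕ} {Γ X E : Type} [Group Γ] [TopologicalSpace X] [ChartedSpace (Cm n) X]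
  [TopologicalSpace E] [MulAction Γ E] {p : E → X} {C : Coc n Γ}
  {w : Chart n X → Cm n → Matrix (Fin n) (Fin n) ℂ} {B : ℝ} {F : E → Cm q}

/-- the density in a framed chart -/
theorem den_GJ (hB : ∃ B, HolB p w F B) (i : IE n p) {y : E} (hy : y ∈ i.1.2.source) :
    den w F i y = GJ (w i.1.1 (i.1.2 y)) (JF (fun z => F (i.1.2.symm z)) (i.1.2 y)) := by
  have hz := i.1.2.map_source hy
  rw [den, vf_eq i hz, hn_VV _ (F_an hB i hz).differentiableAt]

variable [IsManifold 𝓘(ℂ, Cm n) ω X]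

/-- the density does not depend on the framed chart -/
theorem den_eq (hw : IsKahler w) (hB : ∃ B, HolB p w F B) (i j : IE n p) {y : E}
    (hi : y ∈ i.1.2.source) (hj : y ∈ j.1.2.source) : den w F i y = den w F j y := by
  have hzi := i.1.2.map_source hi
  have hzj := j.1.2.map_source hj
  have hx : i.1.2.symm (i.1.2 y) = y := i.1.2.left_inv hi
  rw [den_GJ hB i hi, den_GJ hB j hj]
  set τ : Cm n → Cm n := fun z => j.1.2 (i.1.2.symm z) with hτ
  set f : Cm n → Cm q := fun z => F (j.1.2.symm z) with hf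
  have hτx : τ (i.1.2 y) = j.1.2 y := by rw [hτ]; simp only [hx]
  have h1 : (fun z => F (i.1.2.symm z)) =ᶠ[𝓝 (i.1.2 y)] f ∘ τ := by
    have h2 : ∀ᶠ z in 𝓝 (i.1.2 y), i.1.2.symm z ∈ j.1.2.source :=
      (i.1.2.continuousAt_symm hzi).eventually (j.1.2.open_source.mem_nhds (by rw [hx]; exact hj))
    filter_upwards [h2] with z hz
    show F (i.1.2.symm z) = F (j.1.2.symm (j.1.2 (i.1.2.symm z)))
    rw [j.1.2.left_inv hz]
  have h3 : DifferentiableAt ℂ τ (i.1.2 y) :=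
    (ch_hol i.2 j.2 hzi (by rw [hx]; exact hj)).differentiableAt
  have h4 : DifferentiableAt ℂ f (τ (i.1.2 y)) := by
    rw [hτx]
    exact (F_an hB j hzj).differentiableAt
  -- the Jacobian matrices
  have h5 : JF (fun z => F (i.1.2.symm z)) (i.1.2 y) =
      JF f (j.1.2 y) * jacM i.1.2 j.1.2 y := by
    ext l c
    rw [JF_eq (F_an hB i hzi).differentiableAt, Matrix.mul_apply, H619.K.tL, h1.fderiv_eq,
      fderiv_comp _ h4 h3, hτx]
    show fderiv ℂ f (j.1.2 y) (fderiv ℂ τ (i.1.2 y) (Pi.single c 1)) l = _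
    rw [← JF_apply (F_an hB j hzj).differentiableAt]
    refine Finset.sum_congr rfl fun k _ => ?_
    congr 1
    rw [jacM, Matrix.of_apply, dz_of_holo (differentiableAt_pi.1 h3 k), fderiv_apply h3]
    rfl
  have h6 : w i.1.1 (i.1.2 y) = (jacM i.1.2 j.1.2 y).transpose * w j.1.1 (j.1.2 y) *
      (jacM i.1.2 j.1.2 y).map (starRingEnd ℂ) := by
    rw [ch_jac i.2 j.2 hi hj, i.2.eq y hi, j.2.eq y hj]
    exact hw.change i.1.1 j.1.1 (p y) ⟨i.2.mem, i.2.src y hi⟩ ⟨j.2.mem, j.2.src y hj⟩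
  have hpos : (w i.1.1 (i.1.2 y)).PosDef := by
    rw [i.2.eq y hi]
    exact hw.posDef i.1.1 _ ⟨i.2.mem, i.2.src y hi⟩
  have h7 := H730.V.inv_law hpos.det_pos.ne' h6
  rw [GJ, GJ, h5, Matrix.transpose_mul, Matrix.map_mul]
  have h8 : (JF f (j.1.2 y)).map (starRingEnd ℂ) * (jacM i.1.2 j.1.2 y).map (starRingEnd ℂ) *
      (w i.1.1 (i.1.2 y))⁻¹ * ((jacM i.1.2 j.1.2 y).transpose * (JF f (j.1.2 y)).transpose) =
      (JF f (j.1.2 y)).map (starRingEnd ℂ) * ((jacM i.1.2 j.1.2 y).map (starRingEnd ℂ) *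
      (w i.1.1 (i.1.2 y))⁻¹ * (jacM i.1.2 j.1.2 y).transpose) * (JF f (j.1.2 y)).transpose := by
    simp only [Matrix.mul_assoc]
  rw [h8, h7]

/-- `dV` in a framed chart -/
theorem dV_den (hp : IsCoveringMap p) (hw : IsKahler w) (hB : ∃ B, HolB p w F B) (i : IE n p)
    {y : E} (hi : y ∈ i.1.2.source) : dV hp w F y = den w F i y :=
  den_eq hw hB _ i (exists_ch (n := n) hp y univ_mem).choose_spec.choose_spec.2.1 hi

end

section
variable {n q : ℕ} {Γ X E : Type} [Group Γ] [TopologicalSpace X] [ChartedSpace (Cm n) X]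
  [TopologicalSpace E] [MulAction Γ E] {p : E → X} {C : Coc n Γ}
  {w : Chart n X → Cm n → Matrix (Fin n) (Fin n) ℂ} {B : ℝ} {F : E → Cm q}

/-- the sheets as charts of `E` -/
def sheet (hG : IsGalois Γ p) (D : ECoc p C) (γ : Γ) (a : C.I) :
    OpenPartialHomeomorph E (Cm n) where
  toFun y := D.e a (p y)
  invFun z := γ • D.σ a z
  source := (fun z => γ • D.σ a z) '' C.Ω a
  target := C.Ω a
  map_source' := by
    rintro _ ⟨z, hz, rfl⟩
    rw [D.e_proj hG γ hz]
    exact hz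
  map_target' z hz := ⟨z, hz, rfl⟩
  left_inv' := by
    rintro _ ⟨z, hz, rfl⟩
    rw [D.e_proj hG γ hz]
  right_inv' z hz := D.e_proj hG γ hz
  open_source := by
    rw [isOpen_iff_mem_nhds]
    rintro _ ⟨z, hz, rfl⟩
    filter_upwards [D.ev hG γ hz] with y hy
    exact ⟨_, hy.2.1, hy.2.2⟩
  open_target := isOpen_ball
  continuousOn_toFun := by
    rintro _ ⟨z, hz, rfl⟩
    refine ContinuousAt.continuousWithinAt ?_
    have h1 : ContinuousAt (D.e a) (p (γ • D.σ a z)) := by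
      rw [D.proj' hG γ hz]
      exact (D.e a).continuousAt (D.source hz)
    exact h1.comp hG.cov.continuous.continuousAt
  continuousOn_invFun z hz := (D.cont_at hG γ hz).continuousWithinAt

theorem isCh_sheet (hG : IsGalois Γ p) (D : ECoc p C) (γ : Γ) (a : C.I) :
    IsCh p (D.e a) (sheet hG D γ a) where
  mem := D.mem a
  src := by
    rintro _ ⟨z, hz, rfl⟩
    rw [D.proj' hG γ hz]
    exact D.source hz
  eq _ _ := rfl

/-- the framed chart of a sheet -/
def fr (hG : IsGalois Γ p) (D : ECoc p C) (γ : Γ) (a : C.I) : IE n p :=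
  ⟨(D.e a, sheet hG D γ a), isCh_sheet hG D γ a⟩

variable [IsManifold 𝓘(ℂ, Cm n) ω X]

/-- `dV` on the sheets -/
theorem dV_sheet (hG : IsGalois Γ p) (D : ECoc p C) (K : KM C) (hKw : ∀ a, K.w a = w (D.e a))
    (hw : IsKahler w) (hF : HolB p w F B) (γ : Γ) {a : C.I} {z : Cm n} (hz : z ∈ C.Ω a) :
    dV hG.cov w F (γ • D.σ a z) = GJ (K.w a z) (JF (Fc D F γ a) z) := by
  have h1 : γ • D.σ a z ∈ (fr hG D γ a).1.2.source := ⟨z, hz, rfl⟩
  have h2 : (fr hG D γ a).1.2 (γ • D.σ a z) = z := D.e_proj hG γ hz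
  rw [dV_den hG.cov hw ⟨B, hF⟩ _ h1, den_GJ ⟨B, hF⟩ _ h1, h2]
  have h3 : w (fr hG D γ a).1.1 = K.w a := (hKw a).symm
  rw [h3]
  rfl

theorem dJ_dV (hq : q ≤ n) (hG : IsGalois Γ p) (D : ECoc p C) (K : KM C)
    (hKw : ∀ a, K.w a = w (D.e a)) (hw : IsKahler w) (hF : HolB p w F B) (γ : Γ) {a : C.I}
    {z : Cm n} (hz : z ∈ C.Ω a) :
    H501.K.dJ (K.w a z) (JF (Fc D F γ a) z) =
      ((n - q).factorial : ℝ) * (K.w a z).det.re * dV hG.cov w F (γ • D.σ a z) := by
  rw [dJ_eq ((K.ku a).pos z hz) _ (s := n - q) (by omega), dV_sheet hG D K hKw hw hF γ hz]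
  rfl

/-- `dV` is continuous -/
theorem dV_cont (hq : q ≤ n) (hG : IsGalois Γ p) (D : ECoc p C) (K : KM C)
    (hKw : ∀ a, K.w a = w (D.e a)) (hw : IsKahler w) (hF : HolB p w F B) :
    Continuous (dV hG.cov w F) := by
  let _ : MeasurableSpace E := borel E
  have : BorelSpace E := ⟨rfl⟩
  rw [continuous_iff_continuousAt]
  intro y
  obtain ⟨γ, a, h1, h2, h3⟩ := D.exists_sheet hG y
  set z := D.e a (p y) with hz
  have hzΩ : z ∈ C.Ω a := ball_subset_ball (by linarith [C.r_pos a]) h2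
  have e1 : dV hG.cov w F =ᶠ[𝓝 y] fun y' =>
      H501.K.dJ (K.w a (D.e a (p y'))) (JF (Fc D F γ a) (D.e a (p y'))) /
      (((n - q).factorial : ℝ) * (K.w a (D.e a (p y'))).det.re) := by
    have h4 := D.ev hG γ hzΩ
    rw [h3] at h4
    filter_upwards [h4] with y' hy'
    obtain ⟨-, h5, h6⟩ := hy'
    rw [dJ_dV hq hG D K hKw hw hF γ h5, h6]
    have h7 : (K.w a (D.e a (p y'))).det.re ≠ 0 := (vol_pos K h5).ne'
    have h8 : ((n - q).factorial : ℝ) ≠ 0 := by positivity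
    field_simp
  refine ContinuousAt.congr ?_ e1.symm
  have hcp : ContinuousAt (fun y' => D.e a (p y')) y := by
    have h5 : ContinuousAt (D.e a) (p y) := (D.e a).continuousAt h1
    exact h5.comp hG.cov.continuous.continuousAt
  have c1 : ContinuousAt (fun y' =>
      H501.K.dJ (K.w a (D.e a (p y'))) (JF (Fc D F γ a) (D.e a (p y')))) y :=
    ContinuousAt.comp (f := fun y' => D.e a (p y')) (dJ_cont hG hF γ hzΩ) hcp
  have c2 : ContinuousAt (fun y' => (K.w a (D.e a (p y'))).det.re) y :=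
    ContinuousAt.comp (f := fun y' => D.e a (p y')) (g := fun z => (K.w a z).det.re)
      ((smooth_vol (K.ku a) hzΩ).continuousAt) hcp
  refine c1.div (continuousAt_const.mul c2) ?_
  have h7 : (K.w a (D.e a (p y))).det.re ≠ 0 := (vol_pos K hzΩ).ne'
  have h8 : ((n - q).factorial : ℝ) ≠ 0 := by positivity
  exact mul_ne_zero h8 h7

end

end Vale.Agent.P284.H661.K
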